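import Mathlib

/-!
# Mixing of a given order: from sets to bounded functions
-/

open MeasureTheory Filter
open scoped Topology

namespace Vale.Agent.P102

variable {Ω : Type*} [MeasurableSpace Ω]

/-- `zpowMap T z` is the `z`-th iterate of the invertible map `T`. -/
def zpowMap (T : Ω ≃ᵐ Ω) (z : ℤ) : Ω → Ω := ⇑((T.toEquiv : Equiv.Perm Ω) ^ z)

/-- `MixingOfOrder μ T k`: for all `k` measurable sets and all integer time tuples whose gaps
tend to infinity, the measure of the intersection of the pulled-back sets tends to the product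
of the measures. -/
def MixingOfOrder (μ : Measure Ω) (T : Ω ≃ᵐ Ω) (k : ℕ) : Prop :=
  ∀ A : Fin k → Set Ω, (∀ i, MeasurableSet (A i)) → ∀ t : ℕ → Fin k → ℤ,
    (∀ i j, i < j → Tendsto (fun n => t n j - t n i) atTop atTop) →
    Tendsto (fun n => μ.real (⋂ i, zpowMap T (t n i) ⁻¹' A i)) atTop (𝓝 (∏ i, μ.real (A i)))

lemma zpowMap_natCast (T : Ω ≃ᵐ Ω) (n : ℕ) : zpowMap T (n : ℤ) = (⇑T)^[n] := by
  simp [zpowMap, zpow_natCast, Equiv.Perm.coe_pow]

lemma zpowMap_add (T : Ω ≃ᵐ Ω) (a b : ℤ) : zpowMap T (a + b) = zpowMap T a ∘ zpowMap T b := by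
  simp [zpowMap, zpow_add, Equiv.Perm.coe_mul]

lemma measurePreserving_zpowMap {μ : Measure Ω} {T : Ω ≃ᵐ Ω}
    (hT : MeasurePreserving T μ μ) (z : ℤ) : MeasurePreserving (zpowMap T z) μ μ := by
  induction z using Int.induction_on with
  | zero => simpa [zpowMap] using MeasurePreserving.id μ
  | succ n ih =>
    rw [zpowMap_add]
    refine ih.comp ?_
    simpa [zpowMap] using hT
  | pred n ih =>
    rw [sub_eq_add_neg, zpowMap_add]
    refine ih.comp ?_
    simpa [zpowMap, Equiv.Perm.inv_def] using MeasurePreserving.symm T hT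

lemma norm_prod_sub_prod_le {ι : Type*} (s : Finset ι) (a b : ι → ℂ) (ha : ∀ i, ‖a i‖ ≤ 1)
    (hb : ∀ i, ‖b i‖ ≤ 1) : ‖∏ i ∈ s, a i - ∏ i ∈ s, b i‖ ≤ ∑ i ∈ s, ‖a i - b i‖ := by
  classical
  induction s using Finset.induction with
  | empty => simp
  | @insert j s hj ih =>
    rw [Finset.prod_insert hj, Finset.prod_insert hj, Finset.sum_insert hj,
      show a j * ∏ i ∈ s, a i - b j * ∏ i ∈ s, b i
        = (a j - b j) * ∏ i ∈ s, a i + b j * (∏ i ∈ s, a i - ∏ i ∈ s, b i) by ring]
    have h1 : ‖∏ i ∈ s, a i‖ ≤ 1 := by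
      rw [norm_prod]; exact Finset.prod_le_one (fun i _ => norm_nonneg _) (fun i _ => ha i)
    refine (norm_add_le _ _).trans (add_le_add ?_ ?_) <;> rw [norm_mul]
    · exact mul_le_of_le_one_right (norm_nonneg _) h1
    · exact (mul_le_of_le_one_left (norm_nonneg _) (hb j)).trans ih

lemma integrable_of_norm_le_one {μ : Measure Ω} [IsProbabilityMeasure μ] {g : Ω → ℂ}
    (hg : Measurable g) (hb : ∀ x, ‖g x‖ ≤ 1) : Integrable g μ :=
  Integrable.of_bound hg.aestronglyMeasurable 1 (ae_of_all _ hb)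

lemma tendsto_integral_simple {μ : Measure Ω} [IsProbabilityMeasure μ] {T : Ω ≃ᵐ Ω}
    (hT : MeasurePreserving T μ μ) {k : ℕ} (hmix : MixingOfOrder μ T k)
    (g : Fin k → SimpleFunc Ω ℂ) (t : ℕ → Fin k → ℤ)
    (ht : ∀ i j, i < j → Tendsto (fun n => t n j - t n i) atTop atTop) :
    Tendsto (fun n => ∫ x, ∏ i, g i (zpowMap T (t n i) x) ∂μ) atTop
      (𝓝 (∏ i, ∫ x, g i x ∂μ)) := by
  classical
  let P := Fintype.piFinset fun i => (g i).range
  let B : (Fin k → ℂ) → ℕ → Set Ω := fun p n => ⋂ i, zpowMap T (t n i) ⁻¹' (g i ⁻¹' {p i})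
  have hsum : ∀ i x, g i x = ∑ v ∈ (g i).range, if g i x = v then v else 0 := fun i x => by
    rw [Finset.sum_ite_eq, if_pos (SimpleFunc.mem_range_self _ x)]
  have hB : ∀ p n, MeasurableSet (B p n) := fun p n => MeasurableSet.iInter fun i =>
    (measurePreserving_zpowMap hT _).measurable ((g i).measurableSet_fiber _)
  have e1 : ∀ n, ∫ x, ∏ i, g i (zpowMap T (t n i) x) ∂μ
      = ∑ p ∈ P, (μ.real (B p n) : ℂ) * ∏ i, p i := by
    intro n
    have : ∀ x, ∏ i, g i (zpowMap T (t n i) x)
        = ∑ p ∈ P, (B p n).indicator (fun _ => ∏ i, p i) x := by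
      intro x
      calc ∏ i, g i (zpowMap T (t n i) x)
          = ∏ i, ∑ v ∈ (g i).range, if g i (zpowMap T (t n i) x) = v then v else 0 :=
            Finset.prod_congr rfl fun i _ => hsum i _
        _ = ∑ p ∈ P, ∏ i, if g i (zpowMap T (t n i) x) = p i then p i else 0 :=
            Finset.prod_univ_sum _ _
        _ = _ := Finset.sum_congr rfl fun p _ => by
            by_cases h : ∀ i, g i (zpowMap T (t n i) x) = p i
            · rw [Set.indicator_of_mem (by simpa [B] using h)]
              exact Finset.prod_congr rfl fun i _ => if_pos (h i)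
            · rw [Set.indicator_of_notMem (by simpa [B] using h)]
              obtain ⟨i, hi⟩ := not_forall.mp h
              exact Finset.prod_eq_zero (Finset.mem_univ i) (if_neg hi)
    simp only [this]
    rw [integral_finsetSum _ fun p _ => (integrable_const _).indicator (hB p n)]
    refine Finset.sum_congr rfl fun p _ => ?_
    rw [integral_indicator_const _ (hB p n), Complex.real_smul]
  have e2 : ∏ i, ∫ x, g i x ∂μ = ∑ p ∈ P, (∏ i, μ.real (g i ⁻¹' {p i}) : ℝ) * ∏ i, p i := by
    have : ∀ i, ∫ x, g i x ∂μ = ∑ v ∈ (g i).range, (μ.real (g i ⁻¹' {v}) : ℂ) * v := fun i => by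
      rw [SimpleFunc.integral_eq_sum _ (SimpleFunc.integrable_of_isFiniteMeasure _)]
      exact Finset.sum_congr rfl fun v _ => Complex.real_smul
    simp only [this, Finset.prod_univ_sum, Finset.prod_mul_distrib, Complex.ofReal_prod]
    rfl
  simp only [e1]
  rw [e2]
  refine tendsto_finsetSum _ fun p _ => Tendsto.mul_const _ ?_
  exact (Complex.continuous_ofReal.tendsto _).comp
    (hmix (fun i => g i ⁻¹' {p i}) (fun i => (g i).measurableSet_fiber _) t ht)

/-- Mixing of order `k` applies to bounded measurable functions. -/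
lemma tendsto_integral_prod {μ : Measure Ω} [IsProbabilityMeasure μ] {T : Ω ≃ᵐ Ω}
    (hT : MeasurePreserving T μ μ) {k : ℕ} (hmix : MixingOfOrder μ T k)
    (g : Fin k → Ω → ℂ) (hg : ∀ i, Measurable (g i)) (hb : ∀ i x, ‖g i x‖ ≤ 1)
    (t : ℕ → Fin k → ℤ)
    (ht : ∀ i j, i < j → Tendsto (fun n => t n j - t n i) atTop atTop) :
    Tendsto (fun n => ∫ x, ∏ i, g i (zpowMap T (t n i) x) ∂μ) atTop
      (𝓝 (∏ i, ∫ x, g i x ∂μ)) := by
  classical
  let s : Fin k → ℕ → SimpleFunc Ω ℂ := fun i l =>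
    SimpleFunc.approxOn (g i) (hg i) (Metric.closedBall 0 1) 0 (by simp) l
  have hsb : ∀ i l x, ‖s i l x‖ ≤ 1 := fun i l x =>
    mem_closedBall_zero_iff.mp (SimpleFunc.approxOn_mem (hg i) _ l x)
  let η : ℕ → ℝ := fun l => ∑ i, ∫ x, ‖g i x - s i l x‖ ∂μ
  have hη : Tendsto η atTop (𝓝 0) := by
    have h0 : (0:ℝ) = ∑ _i : Fin k, ∫ _x : Ω, (0:ℝ) ∂μ := by simp
    rw [h0]
    refine tendsto_finsetSum _ fun i _ => tendsto_integral_of_dominated_convergence (fun _ => 2)
      (fun l => ((hg i).sub (s i l).measurable).norm.aestronglyMeasurable) (integrable_const _)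
      (fun l => ae_of_all _ fun x => ?_) (ae_of_all _ fun x => ?_)
    · rw [norm_norm]
      exact (norm_sub_le _ _).trans (by linarith [hb i x, hsb i l x])
    · have : Tendsto (fun l => s i l x) atTop (𝓝 (g i x)) :=
        SimpleFunc.tendsto_approxOn (hg i) _ (subset_closure (mem_closedBall_zero_iff.mpr (hb i x)))
      simpa using ((tendsto_const_nhds (x := g i x)).sub this).norm
  have herr : ∀ (l : ℕ) (τ : Fin k → ℤ), ‖∫ x, ∏ i, g i (zpowMap T (τ i) x) ∂μ
      - ∫ x, ∏ i, s i l (zpowMap T (τ i) x) ∂μ‖ ≤ η l := by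
    intro l τ
    have hm : ∀ i, MeasurePreserving (zpowMap T (τ i)) μ μ := fun i =>
      measurePreserving_zpowMap hT _
    have hd : ∀ i, Integrable (fun x => ‖g i x - s i l x‖) μ := fun i =>
      ((integrable_of_norm_le_one (hg i) (hb i)).sub
        (integrable_of_norm_le_one (s i l).measurable (hsb i l))).norm
    have hp : ∀ h : Fin k → Ω → ℂ, (∀ i, Measurable (h i)) → (∀ i x, ‖h i x‖ ≤ 1) →
        Integrable (fun x => ∏ i, h i (zpowMap T (τ i) x)) μ := fun h hh hh1 =>
      integrable_of_norm_le_one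
        (Finset.measurable_prod _ fun i _ => (hh i).comp (hm i).measurable) fun x => by
          rw [norm_prod]
          exact Finset.prod_le_one (fun i _ => norm_nonneg _) (fun i _ => hh1 i _)
    rw [← integral_sub (hp g hg hb) (hp (fun i => ⇑(s i l)) (fun i => (s i l).measurable)
      fun i => hsb i l)]
    refine (norm_integral_le_integral_norm _).trans ?_
    calc ∫ x, ‖∏ i, g i (zpowMap T (τ i) x) - ∏ i, s i l (zpowMap T (τ i) x)‖ ∂μ
        ≤ ∫ x, ∑ i, ‖g i (zpowMap T (τ i) x) - s i l (zpowMap T (τ i) x)‖ ∂μ :=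
          integral_mono ((hp g hg hb).sub (hp (fun i => ⇑(s i l))
            (fun i => (s i l).measurable) fun i => hsb i l)).norm
            (integrable_finsetSum _ fun i _ => (hm i).integrable_comp_of_integrable (hd i))
            fun x => norm_prod_sub_prod_le _ _ _ (fun i => hb i _) fun i => hsb i l _
      _ = η l := by
          rw [integral_finsetSum]
          swap
          · exact fun i _ => ((hm i).integrable_comp_of_integrable (hd i))
          exact Finset.sum_congr rfl fun i _ => by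
            rw [← integral_map (hm i).measurable.aemeasurable
              (f := fun x => ‖g i x - s i l x‖)
              (by rw [(hm i).map_eq]; exact (hd i).aestronglyMeasurable), (hm i).map_eq]
  have hlim : ∀ l, ‖∏ i, ∫ x, g i x ∂μ - ∏ i, ∫ x, s i l x ∂μ‖ ≤ η l := fun l => by
    have hi : ∀ h : Ω → ℂ, (∀ x, ‖h x‖ ≤ 1) → ‖∫ x, h x ∂μ‖ ≤ 1 := fun h hh => by
      simpa using norm_integral_le_of_norm_le_const (μ := μ) (ae_of_all _ hh)
    refine (norm_prod_sub_prod_le _ _ _ (fun i => hi _ (hb i)) fun i => hi _ (hsb i l)).trans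
      (Finset.sum_le_sum fun i _ => ?_)
    rw [← integral_sub (integrable_of_norm_le_one (hg i) (hb i))
      (integrable_of_norm_le_one (s i l).measurable (hsb i l))]
    exact norm_integral_le_integral_norm _
  refine Metric.tendsto_nhds.mpr fun ε hε => ?_
  obtain ⟨l, hl⟩ := (hη.eventually (gt_mem_nhds (show (0:ℝ) < ε / 3 by linarith))).exists
  filter_upwards [Metric.tendsto_nhds.mp
    (tendsto_integral_simple hT hmix (fun i => s i l) t ht) (ε/3) (by linarith)] with n hn
  rw [dist_eq_norm] at hn ⊢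
  have h1 := herr l (t n)
  have h2 := hlim l
  rw [norm_sub_rev] at h2
  calc _ ≤ _ := norm_sub_le_norm_sub_add_norm_sub _ (∫ x, ∏ i, s i l (zpowMap T (t n i) x) ∂μ) _
    _ ≤ η l + (ε / 3 + η l) :=
      add_le_add h1 ((norm_sub_le_norm_sub_add_norm_sub _ (∏ i, ∫ x, s i l x ∂μ) _).trans
        (add_le_add hn.le h2))
    _ < ε := by linarith

end Vale.Agent.P102
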