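import Mathlib

/-!
# Integer polynomial ideals containing sums of far-apart monomials
-/

open Polynomial Filter
open scoped Topology

namespace Vale.Agent.P102

/-- The relation polynomial `∑ i, X ^ d i`. -/
noncomputable def relPoly {m : ℕ} (d : Fin (m+1) → ℕ) : ℤ[X] := ∑ i, X ^ d i

lemma relPoly_monic {m : ℕ} (d : Fin (m+1) → ℕ) (hd : StrictMono d) : (relPoly d).Monic := by
  unfold relPoly
  rw [Fin.sum_univ_castSucc, add_comm]
  refine monic_X_pow_add ?_
  refine (degree_sum_le _ _).trans_lt ?_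
  rw [Finset.sup_lt_iff (WithBot.bot_lt_coe _)]
  intro i _
  rw [degree_X_pow]
  exact_mod_cast hd (Fin.castSucc_lt_last i)

/-- A common complex root of relation polynomials with growing gaps lies on the unit circle. -/
lemma norm_root_eq_one {m : ℕ} (d : ℕ → Fin (m+1) → ℕ) (hd0 : ∀ n, d n 0 = 0)
    (hgap : ∀ g : ℕ, ∀ᶠ n in atTop, ∀ i j, i < j → d n i + g ≤ d n j) (z : ℂ)
    (hz : ∀ᶠ n in atTop, aeval z (relPoly (d n)) = 0) : ‖z‖ = 1 := by
  have key : ∀ n, aeval z (relPoly (d n)) = ∑ i, z ^ d n i := fun n => by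
    simp [relPoly]
  rcases lt_trichotomy ‖z‖ 1 with h | h | h
  · exfalso
    have ht := (tendsto_pow_atTop_nhds_zero_of_lt_one (norm_nonneg z) h).const_mul ((m : ℝ))
    rw [mul_zero] at ht
    obtain ⟨g, hg⟩ := (ht.eventually (gt_mem_nhds (one_pos : (0:ℝ) < 1))).exists
    obtain ⟨n, hn, hroot⟩ := ((hgap g).and hz).exists
    rw [key, Fin.sum_univ_succ, hd0, pow_zero] at hroot
    have e : (1 : ℂ) = -∑ i : Fin m, z ^ d n i.succ := eq_neg_of_add_eq_zero_left hroot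
    have : (1:ℝ) ≤ ∑ i : Fin m, ‖z‖ ^ g := by
      calc (1:ℝ) = ‖(1:ℂ)‖ := by simp
        _ = ‖∑ i : Fin m, z ^ d n i.succ‖ := by rw [e, norm_neg]
        _ ≤ ∑ i : Fin m, ‖z ^ d n i.succ‖ := norm_sum_le _ _
        _ ≤ ∑ i : Fin m, ‖z‖ ^ g := Finset.sum_le_sum fun i _ => by
          rw [norm_pow]
          refine pow_le_pow_of_le_one (norm_nonneg z) h.le ?_
          have := hn 0 i.succ (Fin.succ_pos i)
          omega
    simp at this
    linarith
  · exact h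
  · exfalso
    obtain ⟨g, hg⟩ := pow_unbounded_of_one_lt (m : ℝ) h
    obtain ⟨n, hn, hroot⟩ := ((hgap g).and hz).exists
    rw [key, Fin.sum_univ_castSucc] at hroot
    have hpos : 0 < ‖z‖ := lt_trans one_pos h
    have e : z ^ d n (Fin.last m) = -∑ i : Fin m, z ^ d n i.castSucc :=
      eq_neg_of_add_eq_zero_right hroot
    have : ‖z‖ ^ d n (Fin.last m) ≤ ∑ i : Fin m, ‖z‖ ^ d n (Fin.last m) / ‖z‖ ^ g := by
      calc ‖z‖ ^ d n (Fin.last m) = ‖∑ i : Fin m, z ^ d n i.castSucc‖ := by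
            rw [← norm_pow, e, norm_neg]
        _ ≤ ∑ i : Fin m, ‖z ^ d n i.castSucc‖ := norm_sum_le _ _
        _ ≤ _ := Finset.sum_le_sum fun i _ => by
          rw [norm_pow, le_div_iff₀ (pow_pos hpos g), ← pow_add]
          exact pow_le_pow_right₀ h.le (hn _ _ (Fin.castSucc_lt_last i))
    simp only [Finset.sum_const, Finset.card_univ, Fintype.card_fin, nsmul_eq_mul] at this
    rw [← mul_div_assoc, le_div_iff₀ (pow_pos hpos g)] at this
    have hL : 0 < ‖z‖ ^ d n (Fin.last m) := pow_pos hpos _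
    nlinarith

/-- A common complex root of relation polynomials with growing gaps is a root of unity. -/
lemma root_of_unity {m : ℕ} (d : ℕ → Fin (m+1) → ℕ) (hd : ∀ n, StrictMono (d n))
    (hd0 : ∀ n, d n 0 = 0)
    (hgap : ∀ g : ℕ, ∀ᶠ n in atTop, ∀ i j, i < j → d n i + g ≤ d n j) (z : ℂ)
    (hz : ∀ᶠ n in atTop, aeval z (relPoly (d n)) = 0) : ∃ N, 0 < N ∧ z ^ N = 1 := by
  obtain ⟨n₀, hn₀⟩ := hz.exists
  have hint : IsIntegral ℤ z :=
    ⟨relPoly (d n₀), relPoly_monic _ (hd n₀), by rw [← aeval_def]; exact hn₀⟩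
  let K := IntermediateField.adjoin ℚ ({z} : Set ℂ)
  let nf : NumberField K :=
    { to_charZero := inferInstance
      to_finiteDimensional := IntermediateField.adjoin.finiteDimensional hint.tower_top }
  let y : K := ⟨z, IntermediateField.mem_adjoin_simple_self ℚ z⟩
  have hy : IsIntegral ℤ y := (isIntegral_algebraMap_iff
    (FaithfulSMul.algebraMap_injective K ℂ)).mp hint
  obtain ⟨N, hN, hyN⟩ := NumberField.Embeddings.pow_eq_one_of_norm_eq_one (K := K) (A := ℂ) hy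
    (fun φ => norm_root_eq_one d hd0 hgap (φ y) (hz.mono fun n hn => by
      have h0 : (∑ i, y ^ d n i) = 0 := by
        apply Subtype.ext
        simpa [relPoly, y] using hn
      simpa [relPoly] using congrArg φ h0))
  exact ⟨N, hN, congrArg (algebraMap K ℂ) hyN⟩

/-- The rational multiples of an ideal of `ℤ[X]`, as an ideal of `ℚ[X]`. -/
noncomputable def ratIdeal (I : Ideal ℤ[X]) : Ideal ℚ[X] where
  carrier := {q | ∃ D : ℤ, D ≠ 0 ∧ ∃ P ∈ I, P.map (Int.castRingHom ℚ) = C (D : ℚ) * q}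
  zero_mem' := ⟨1, one_ne_zero, 0, I.zero_mem, by simp⟩
  add_mem' := by
    rintro a b ⟨D, hD, P, hP, hPa⟩ ⟨E, hE, Q, hQ, hQb⟩
    refine ⟨D * E, mul_ne_zero hD hE, C E * P + C D * Q,
      I.add_mem (I.mul_mem_left _ hP) (I.mul_mem_left _ hQ), ?_⟩
    simp [hPa, hQb]; ring
  smul_mem' := by
    intro c a ⟨D, hD, P, hP, hPa⟩
    induction c using Polynomial.induction_on' with
    | add p q hp hq =>
      obtain ⟨D₁, h₁, P₁, hP₁, e₁⟩ := hp
      obtain ⟨D₂, h₂, P₂, hP₂, e₂⟩ := hq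
      refine ⟨D₁ * D₂, mul_ne_zero h₁ h₂, C D₂ * P₁ + C D₁ * P₂,
        I.add_mem (I.mul_mem_left _ hP₁) (I.mul_mem_left _ hP₂), ?_⟩
      simp only [smul_eq_mul] at e₁ e₂ ⊢
      simp [e₁, e₂]; ring
    | monomial n r =>
      refine ⟨D * (r.den : ℤ), mul_ne_zero hD (by exact_mod_cast r.den_nz),
        C r.num * X ^ n * P, I.mul_mem_left _ hP, ?_⟩
      have hr : (r.num : ℚ) = r * (r.den : ℚ) := (Rat.mul_den_eq_num r).symm
      rw [Polynomial.map_mul, Polynomial.map_mul, map_C, Polynomial.map_pow, map_X, hPa,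
        smul_eq_mul, ← C_mul_X_pow_eq_monomial, eq_intCast (Int.castRingHom ℚ), hr, Int.cast_mul,
        Int.cast_natCast, map_mul, map_mul]
      ring

/-- An ideal of `ℤ[X]` that eventually contains the relation polynomials contains a nonzero
multiple of some `(X ^ N - 1) ^ e`. -/
lemma exists_cyclotomic_mem {m : ℕ} (d : ℕ → Fin (m+1) → ℕ) (hd : ∀ n, StrictMono (d n))
    (hd0 : ∀ n, d n 0 = 0)
    (hgap : ∀ g : ℕ, ∀ᶠ n in atTop, ∀ i j, i < j → d n i + g ≤ d n j)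
    (I : Ideal ℤ[X]) (hI : ∀ᶠ n in atTop, relPoly (d n) ∈ I) :
    ∃ D : ℤ, D ≠ 0 ∧ ∃ N e : ℕ, 0 < N ∧ C D * (X ^ N - 1) ^ e ∈ I := by
  classical
  let cq : ℤ →+* ℚ := Int.castRingHom ℚ
  obtain ⟨G, hG⟩ := (IsPrincipalIdealRing.principal (ratIdeal I)).principal
  have hmem : ∀ q, q ∈ ratIdeal I ↔ G ∣ q := fun q => by
    rw [hG]; exact Ideal.mem_span_singleton
  have hR : ∀ᶠ n in atTop, G ∣ (relPoly (d n)).map cq :=
    hI.mono fun n hn => (hmem _).mp ⟨1, one_ne_zero, _, hn, by simp [cq]⟩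
  have hG0 : G ≠ 0 := by
    intro h0
    obtain ⟨n, hn⟩ := hR.exists
    rw [h0, zero_dvd_iff] at hn
    exact ((relPoly_monic _ (hd n)).map cq).ne_zero hn
  let S := (G.map (algebraMap ℚ ℂ)).roots
  have hroot : ∀ z ∈ S, ∃ N, 0 < N ∧ z ^ N = 1 := by
    intro z hz
    refine root_of_unity d hd hd0 hgap z (hR.mono fun n hn => ?_)
    have hzG : aeval z G = 0 := (mem_aroots.mp hz).2
    have := aeval_eq_zero_of_dvd_aeval_eq_zero hn hzG
    simpa [relPoly, cq, Polynomial.map_sum] using this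
  choose! Nz hNpos hNz using hroot
  let N := ∏ z ∈ S.toFinset, Nz z
  have hN : 0 < N := Finset.prod_pos fun z hz => hNpos z (Multiset.mem_toFinset.mp hz)
  have hone : ∀ z ∈ S, z ^ N = 1 := fun z hz => by
    obtain ⟨c, hc⟩ : Nz z ∣ N := Finset.dvd_prod_of_mem Nz (Multiset.mem_toFinset.mpr hz)
    rw [hc, pow_mul, hNz z hz, one_pow]
  have hdiv : G ∣ (X ^ N - 1) ^ Multiset.card S := by
    rw [← map_dvd_map' (algebraMap ℚ ℂ)]
    have hs := (IsAlgClosed.splits (G.map (algebraMap ℚ ℂ))).eq_prod_roots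
    rw [hs, IsUnit.mul_left_dvd (isUnit_C.mpr (isUnit_iff_ne_zero.mpr
      (leadingCoeff_ne_zero.mpr (map_ne_zero hG0)))), Polynomial.map_pow, Polynomial.map_sub,
      Polynomial.map_pow, map_X, Polynomial.map_one]
    have := Multiset.prod_dvd_prod_of_dvd (fun z : ℂ => X - C z) (fun _ => X ^ N - 1)
      (S := S) (fun z hz => dvd_iff_isRoot.mpr (by simp [hone z hz]))
    simpa using this
  obtain ⟨D, hD, P, hP, hPe⟩ := (hmem _).mpr hdiv
  refine ⟨D, hD, N, Multiset.card S, hN, ?_⟩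
  have : P = C D * (X ^ N - 1) ^ Multiset.card S := by
    apply map_injective cq Int.cast_injective
    rw [hPe]
    simp [cq]
  rwa [← this]

/-- An ideal of `ℤ[X]` containing a nonzero constant and a monic polynomial contains a binomial
`X ^ a - X ^ b` with `a ≠ b`. -/
lemma exists_binomial_mem (I : Ideal ℤ[X]) (D : ℕ) [NeZero D] (hD : C (D : ℤ) ∈ I)
    (R : ℤ[X]) (hR : R.Monic) (hRI : R ∈ I) : ∃ a b : ℕ, b < a ∧ X ^ a - X ^ b ∈ I := by
  let v : ℕ → Fin R.natDegree → ZMod D := fun a i => (((X ^ a : ℤ[X]) %ₘ R).coeff i : ZMod D)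
  obtain ⟨a, b, hne, hab⟩ := Finite.exists_ne_map_eq_of_infinite v
  have hmem : ∀ a b : ℕ, v a = v b → X ^ a - X ^ b ∈ I := by
    intro a b hab
    have hdiv : C (D : ℤ) ∣ (X ^ a : ℤ[X]) %ₘ R - X ^ b %ₘ R := by
      rw [C_dvd_iff_dvd_coeff]
      intro i
      rw [coeff_sub, ← ZMod.intCast_eq_intCast_iff_dvd_sub]
      by_cases hi : i < R.natDegree
      · exact (congrFun hab ⟨i, hi⟩).symm
      · rcases eq_or_ne R 1 with h1 | h1
        · simp [h1]
        · have hh : ∀ c : ℕ, ((X ^ c : ℤ[X]) %ₘ R).coeff i = 0 := fun c =>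
            coeff_eq_zero_of_natDegree_lt
              ((natDegree_modByMonic_lt _ hR h1).trans_le (not_lt.mp hi))
          rw [hh, hh]
    have h2 : (X ^ a - X ^ b : ℤ[X]) =
        ((X ^ a : ℤ[X]) %ₘ R - X ^ b %ₘ R) + R * ((X ^ a : ℤ[X]) /ₘ R - X ^ b /ₘ R) := by
      linear_combination -modByMonic_add_div (X ^ a : ℤ[X]) R +
        modByMonic_add_div (X ^ b : ℤ[X]) R
    rw [h2]
    exact I.add_mem (I.mem_of_dvd hdiv hD) (I.mul_mem_right _ hRI)
  rcases lt_or_gt_of_ne hne with h | h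
  · exact ⟨b, a, h, hmem b a hab.symm⟩
  · exact ⟨a, b, h, hmem a b hab⟩

end Vale.Agent.P102
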