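import Mathlib
import Vale.Agent.P102.Roots
import Vale.Agent.P102.Mixing

/-!
# Asymptotically exact group relations of a mixing transformation are trivial
-/

open MeasureTheory Filter Polynomial
open scoped Topology ComplexConjugate

namespace Vale.Agent.P102

variable {Ω : Type*}

/-- `evalObs T F P` is the observable `∏ j, (F ∘ T^j) ^ (P.coeff j)`. -/
noncomputable def evalObs (T : Ω → Ω) (F : Ω → Circle) (P : ℤ[X]) (x : Ω) : Circle :=
  ∏ j ∈ P.support, F (T^[j] x) ^ P.coeff j

lemma evalObs_eq {T : Ω → Ω} {F : Ω → Circle} (P : ℤ[X]) (s : Finset ℕ) (hs : P.support ⊆ s)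
    (x : Ω) : evalObs T F P x = ∏ j ∈ s, F (T^[j] x) ^ P.coeff j :=
  Finset.prod_subset hs fun j _ hj => by rw [notMem_support_iff.mp hj, zpow_zero]

lemma evalObs_add (T : Ω → Ω) (F : Ω → Circle) (P Q : ℤ[X]) (x : Ω) :
    evalObs T F (P + Q) x = evalObs T F P x * evalObs T F Q x := by
  rw [evalObs_eq P (P.support ∪ Q.support) Finset.subset_union_left x,
    evalObs_eq Q (P.support ∪ Q.support) Finset.subset_union_right x,
    evalObs_eq (P + Q) (P.support ∪ Q.support) support_add x, ← Finset.prod_mul_distrib]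
  exact Finset.prod_congr rfl fun j _ => by rw [coeff_add, zpow_add]

lemma evalObs_monomial (T : Ω → Ω) (F : Ω → Circle) (n : ℕ) (a : ℤ) (x : Ω) :
    evalObs T F (monomial n a) x = F (T^[n] x) ^ a := by
  rw [evalObs_eq (monomial n a) {n} (support_monomial_subset _ _) x, Finset.prod_singleton,
    coeff_monomial, if_pos rfl]

lemma evalObs_zero (T : Ω → Ω) (F : Ω → Circle) (x : Ω) : evalObs T F 0 x = 1 := by
  simp [evalObs]

lemma evalObs_monomial_mul (T : Ω → Ω) (F : Ω → Circle) (n : ℕ) (a : ℤ) (P : ℤ[X]) (x : Ω) :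
    evalObs T F (monomial n a * P) x = evalObs T F P (T^[n] x) ^ a := by
  induction P using Polynomial.induction_on' with
  | add p q hp hq => rw [mul_add, evalObs_add, hp, hq, evalObs_add, mul_zpow]
  | monomial j b =>
    rw [monomial_mul_monomial, evalObs_monomial, evalObs_monomial, add_comm n j,
      Function.iterate_add_apply, ← zpow_mul, mul_comm a b]

lemma evalObs_X_pow_mul (T : Ω → Ω) (F : Ω → Circle) (n : ℕ) (P : ℤ[X]) (x : Ω) :
    evalObs T F (X ^ n * P) x = evalObs T F P (T^[n] x) := by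
  rw [X_pow_eq_monomial, evalObs_monomial_mul, zpow_one]

lemma evalObs_sum_X_pow_mul (T : Ω → Ω) (F : Ω → Circle) {ι : Type*} (s : Finset ι) (d : ι → ℕ)
    (P : ℤ[X]) (x : Ω) :
    evalObs T F ((∑ i ∈ s, X ^ d i) * P) x = ∏ i ∈ s, evalObs T F P (T^[d i] x) := by
  classical
  induction s using Finset.induction with
  | empty => simp [evalObs_zero]
  | @insert j s hj ih =>
    rw [Finset.sum_insert hj, add_mul, evalObs_add, Finset.prod_insert hj, ih, evalObs_X_pow_mul]

lemma evalObs_one (T : Ω → Ω) (F : Ω → Circle) (x : Ω) : evalObs T F 1 x = F x := by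
  rw [← monomial_zero_one, evalObs_monomial, zpow_one, Function.iterate_zero_apply]

variable [MeasurableSpace Ω]

lemma measurable_evalObs {T : Ω → Ω} (hT : Measurable T) {F : Ω → Circle}
    (hF : Measurable fun x => (F x : ℂ)) (P : ℤ[X]) :
    Measurable fun x => (evalObs T F P x : ℂ) := by
  induction P using Polynomial.induction_on' with
  | add p q hp hq =>
    simp only [evalObs_add, Circle.coe_mul]
    exact hp.mul hq
  | monomial n a =>
    simp only [evalObs_monomial, Circle.coe_zpow]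
    cases a with
    | ofNat k => simp only [Int.ofNat_eq_natCast, zpow_natCast]
                 exact (hF.comp (hT.iterate n)).pow_const k
    | negSucc k => simp only [zpow_negSucc]
                   exact ((hF.comp (hT.iterate n)).pow_const (k+1)).inv

/-- The ideal of relations: polynomials whose observable is a.e. constant. -/
noncomputable def constIdeal (μ : Measure Ω) (T : Ω → Ω) (hT : MeasurePreserving T μ μ)
    (F : Ω → Circle) : Ideal ℤ[X] where
  carrier := {P | ∃ c : Circle, ∀ᵐ x ∂μ, evalObs T F P x = c}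
  zero_mem' := ⟨1, ae_of_all _ (evalObs_zero T F)⟩
  add_mem' := by
    rintro a b ⟨c, hc⟩ ⟨c', hc'⟩
    exact ⟨c * c', by filter_upwards [hc, hc'] with x h h'; rw [evalObs_add, h, h']⟩
  smul_mem' := by
    intro P a ⟨c, hc⟩
    induction P using Polynomial.induction_on' with
    | add p q hp hq =>
      obtain ⟨c₁, h₁⟩ := hp
      obtain ⟨c₂, h₂⟩ := hq
      refine ⟨c₁ * c₂, ?_⟩
      filter_upwards [h₁, h₂] with x h h'
      rw [smul_eq_mul] at h h' ⊢
      rw [add_mul, evalObs_add, h, h']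
    | monomial n z =>
      refine ⟨c ^ z, ?_⟩
      filter_upwards [(hT.iterate n).quasiMeasurePreserving.ae hc] with x h
      rw [smul_eq_mul, evalObs_monomial_mul, h]

lemma norm_coe_mul_sub (a b c d : Circle) :
    ‖((a * b : Circle) : ℂ) - ((c * d : Circle) : ℂ)‖ ≤ ‖(a:ℂ) - c‖ + ‖(b:ℂ) - d‖ := by
  rw [Circle.coe_mul, Circle.coe_mul, show (a:ℂ) * b - c * d = (a - c) * b + c * (b - d) by ring]
  refine (norm_add_le _ _).trans (le_of_eq ?_)
  rw [norm_mul, norm_mul, Circle.norm_coe, Circle.norm_coe, mul_one, one_mul]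

lemma norm_coe_zpow_sub (a b : Circle) (z : ℤ) :
    ‖((a ^ z : Circle) : ℂ) - ((b ^ z : Circle) : ℂ)‖ ≤ |(z:ℝ)| * ‖(a:ℂ) - b‖ := by
  have key : ∀ k : ℕ, ‖((a ^ k : Circle) : ℂ) - ((b ^ k : Circle) : ℂ)‖ ≤ k * ‖(a:ℂ) - b‖ := by
    intro k
    induction k with
    | zero => simp
    | succ k ih =>
      rw [pow_succ, pow_succ, Nat.cast_succ, add_mul, one_mul]
      exact (norm_coe_mul_sub _ _ _ _).trans (add_le_add ih le_rfl)
  have hinv : ∀ u v : Circle, ‖((u⁻¹ : Circle) : ℂ) - ((v⁻¹ : Circle) : ℂ)‖ = ‖(u:ℂ) - v‖ := by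
    intro u v
    rw [Circle.coe_inv, Circle.coe_inv, inv_sub_inv (Circle.coe_ne_zero u) (Circle.coe_ne_zero v),
      norm_div, norm_mul, Circle.norm_coe, Circle.norm_coe, mul_one, div_one, norm_sub_rev]
  obtain ⟨k, rfl | rfl⟩ := Int.eq_nat_or_neg z
  · simpa using key k
  · rw [zpow_neg, zpow_neg, hinv, zpow_natCast, zpow_natCast]
    simpa using key k

/-- A sequence of polynomials whose observables are asymptotically constant in mean. -/
def AsympConst (μ : Measure Ω) (T : Ω → Ω) (F : Ω → Circle) (Q : ℕ → ℤ[X]) : Prop :=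
  ∃ c : ℕ → Circle,
    Tendsto (fun n => ∫ x, ‖(evalObs T F (Q n) x : ℂ) - c n‖ ∂μ) atTop (𝓝 0)

variable {μ : Measure Ω} [IsProbabilityMeasure μ]

lemma integrable_sub {T : Ω → Ω} (hT : Measurable T) {F : Ω → Circle}
    (hF : Measurable fun x => (F x : ℂ)) (P : ℤ[X]) (c : Circle) :
    Integrable (fun x => ‖(evalObs T F P x : ℂ) - c‖) μ :=
  ((integrable_of_norm_le_one (measurable_evalObs hT hF P) fun x => (Circle.norm_coe _).le).sub
    (integrable_const _)).norm

lemma AsympConst.mul_left {T : Ω → Ω} (hT : MeasurePreserving T μ μ) {F : Ω → Circle}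
    (hF : Measurable fun x => (F x : ℂ)) {Q : ℕ → ℤ[X]} (h : AsympConst μ T F Q) (P : ℤ[X]) :
    AsympConst μ T F fun n => P * Q n := by
  have hm := hT.measurable
  induction P using Polynomial.induction_on' with
  | add p q hp hq =>
    obtain ⟨c, hc⟩ := hp
    obtain ⟨c', hc'⟩ := hq
    refine ⟨c * c', squeeze_zero (fun n => integral_nonneg fun _ => norm_nonneg _) (fun n => ?_)
      (by simpa using hc.add hc')⟩
    rw [← integral_add (integrable_sub hm hF _ _) (integrable_sub hm hF _ _)]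
    refine integral_mono (integrable_sub hm hF _ _)
      ((integrable_sub hm hF _ _).add (integrable_sub hm hF _ _)) fun x => ?_
    show ‖(evalObs T F ((p + q) * Q n) x : ℂ) - ((c n * c' n : Circle) : ℂ)‖ ≤ _
    rw [add_mul, evalObs_add]
    exact norm_coe_mul_sub _ _ _ _
  | monomial j z =>
    obtain ⟨c, hc⟩ := h
    refine ⟨fun n => c n ^ z, squeeze_zero (fun n => integral_nonneg fun _ => norm_nonneg _)
      (fun n => ?_) (by simpa using hc.const_mul |(z:ℝ)|)⟩
    have e : ∫ x, ‖(evalObs T F (Q n) (T^[j] x) : ℂ) - c n‖ ∂μ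
        = ∫ x, ‖(evalObs T F (Q n) x : ℂ) - c n‖ ∂μ := by
      rw [← integral_map (hT.iterate j).measurable.aemeasurable
        (f := fun x => ‖(evalObs T F (Q n) x : ℂ) - c n‖)
        (by rw [(hT.iterate j).map_eq]; exact (integrable_sub hm hF _ _).aestronglyMeasurable),
        (hT.iterate j).map_eq]
    rw [← e, ← integral_const_mul]
    refine integral_mono (integrable_sub hm hF _ _)
      (((hT.iterate j).integrable_comp_of_integrable
        (integrable_sub hm hF (Q n) (c n))).const_mul _)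
      fun x => ?_
    rw [evalObs_monomial_mul]
    exact norm_coe_zpow_sub _ _ _

/-- The phase of a complex number. -/
lemma exists_phase (a : ℂ) : ∃ c : Circle, conj (c : ℂ) * a = (‖a‖ : ℝ) := by
  refine ⟨Circle.exp (Complex.arg a), ?_⟩
  show conj (Complex.exp (Complex.arg a * Complex.I)) * a = _
  rw [← Complex.exp_conj, map_mul, Complex.conj_ofReal, Complex.conj_I]
  nth_rewrite 2 [← Complex.norm_mul_exp_arg_mul_I a]
  rw [mul_comm (‖a‖ : ℂ), ← mul_assoc, ← Complex.exp_add]
  simp

lemma exists_const_integral_le {g : Ω → Circle} (hg : Measurable fun x => (g x : ℂ)) :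
    ∃ c : Circle, ∀ ε : ℝ, 0 < ε →
      ∫ x, ‖(g x : ℂ) - c‖ ∂μ ≤ ε + 2 * (1 - ‖∫ x, (g x : ℂ) ∂μ‖) / ε := by
  obtain ⟨c, hc⟩ := exists_phase (∫ x, (g x : ℂ) ∂μ)
  refine ⟨c, fun ε hε => ?_⟩
  have hi : Integrable (fun x => (g x : ℂ)) μ := integrable_of_norm_le_one hg fun x => (Circle.norm_coe _).le
  have hre : ∫ x, (conj (c : ℂ) * g x).re ∂μ = ‖∫ x, (g x : ℂ) ∂μ‖ := by
    have := integral_re (μ := μ) (hi.const_mul (conj (c : ℂ)))
    simp only [RCLike.re_to_complex] at this
    rw [this, integral_const_mul, hc, Complex.ofReal_re]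
  have hre_i : Integrable (fun x => (conj (c : ℂ) * g x).re) μ := (hi.const_mul _).re
  have hpt : ∀ x, ‖(g x : ℂ) - c‖ ≤ ε + 2 * (1 - (conj (c : ℂ) * g x).re) / ε := by
    intro x
    have h2 : ‖(g x : ℂ) - c‖ ^ 2 = 2 * (1 - (conj (c : ℂ) * g x).re) := by
      rw [← Complex.normSq_eq_norm_sq, Complex.normSq_sub]
      rw [Complex.normSq_eq_norm_sq, Complex.normSq_eq_norm_sq, Circle.norm_coe, Circle.norm_coe]
      simp [Complex.mul_re]; ring
    rw [← h2, ← sub_le_iff_le_add', le_div_iff₀ hε]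
    nlinarith [sq_nonneg (‖(g x : ℂ) - c‖ - ε), norm_nonneg ((g x : ℂ) - c)]
  calc ∫ x, ‖(g x : ℂ) - c‖ ∂μ
      ≤ ∫ x, (ε + 2 * (1 - (conj (c : ℂ) * g x).re) / ε) ∂μ :=
        integral_mono ((hi.sub (integrable_const _)).norm)
          ((integrable_const _).add ((((integrable_const _).sub hre_i).const_mul 2).div_const ε))
          hpt
    _ = _ := by
        rw [integral_add (f := fun _ => ε)
          (g := fun x => 2 * (1 - (conj (c : ℂ) * g x).re) / ε) (integrable_const _)
          ((((integrable_const _).sub hre_i).const_mul 2).div_const ε), integral_div,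
          integral_const_mul, integral_sub (integrable_const _) hre_i, hre]
        simp

lemma ae_const_of_norm_integral {g : Ω → Circle} (hg : Measurable fun x => (g x : ℂ))
    (h : ‖∫ x, (g x : ℂ) ∂μ‖ = 1) : ∃ c : Circle, ∀ᵐ x ∂μ, g x = c := by
  obtain ⟨c, hc⟩ := exists_const_integral_le (μ := μ) hg
  refine ⟨c, ?_⟩
  have hi : Integrable (fun x => ‖(g x : ℂ) - c‖) μ :=
    ((integrable_of_norm_le_one hg fun x => (Circle.norm_coe _).le).sub (integrable_const _)).norm
  have h0 : ∫ x, ‖(g x : ℂ) - c‖ ∂μ = 0 := by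
    refine le_antisymm ?_ (integral_nonneg fun _ => norm_nonneg _)
    refine le_of_forall_pos_le_add fun ε hε => ?_
    simpa [h] using hc ε hε
  filter_upwards [(integral_eq_zero_iff_of_nonneg (fun _ => norm_nonneg _) hi).mp h0] with x hx
  exact Subtype.ext (sub_eq_zero.mp (norm_eq_zero.mp hx))

variable {T : Ω ≃ᵐ Ω} (hT : MeasurePreserving T μ μ) {F : Ω → Circle}
  (hF : Measurable fun x => (F x : ℂ)) {m : ℕ} (hmix : MixingOfOrder μ T m) (hm : 2 ≤ m)
  (d : ℕ → Fin (m+1) → ℕ) (hd : ∀ n, StrictMono (d n)) (hd0 : ∀ n, d n 0 = 0)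
  (hgap : ∀ g : ℕ, ∀ᶠ n in atTop, ∀ i j, i < j → d n i + g ≤ d n j)
  (hlim : Tendsto (fun n => ‖∫ x, ∏ i, (F ((⇑T)^[d n i] x) : ℂ) ∂μ‖) atTop (𝓝 1))

include hT hF hmix hm in
/-- Eigenfunctions of powers are trivial, so `X ^ N - 1` may be cancelled in the relation ideal. -/
lemma cancel_X_pow_sub_one {N : ℕ} (hN : 0 < N) (Q : ℤ[X])
    (h : (X ^ N - 1) * Q ∈ constIdeal μ T hT F) : Q ∈ constIdeal μ T hT F := by
  obtain ⟨c, hc⟩ := h
  set u := evalObs T F Q with hu
  have hu_m : Measurable fun x => (u x : ℂ) := measurable_evalObs T.measurable hF Q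
  have h1 : ∀ᵐ x ∂μ, u ((⇑T)^[N] x) = c * u x := by
    filter_upwards [hc] with x hx
    rw [hu, ← evalObs_X_pow_mul, ← hx, ← evalObs_add]
    congr 1; ring
  have hn : ∀ n : ℕ, ∀ᵐ x ∂μ, u ((⇑T)^[N * n] x) = c ^ n * u x := by
    intro n
    induction n with
    | zero => simp
    | succ n ih =>
      filter_upwards [ih, (hT.iterate (N * n)).quasiMeasurePreserving.ae h1] with x hx hx'
      rw [Nat.mul_succ, Nat.add_comm, Function.iterate_add_apply, hx', hx, pow_succ', mul_assoc]
  obtain ⟨p, rfl⟩ := Nat.exists_eq_add_of_le' hm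
  let g : Fin (p + 2) → Ω → ℂ :=
    Fin.cons (fun x => conj (u x : ℂ)) (Fin.cons (fun x => (u x : ℂ)) fun _ _ => 1)
  have hg : ∀ i, Measurable (g i) := Fin.cases
    (Complex.continuous_conj.measurable.comp hu_m)
    (Fin.cases hu_m fun i => measurable_const)
  have hb : ∀ i x, ‖g i x‖ ≤ 1 := Fin.cases (fun x => show ‖conj (u x : ℂ)‖ ≤ 1 by rw [Complex.norm_conj, Circle.norm_coe])
    (Fin.cases (fun x => (Circle.norm_coe _).le) fun i x => by simp [g])
  let t : ℕ → Fin (p + 2) → ℤ := fun n i => ((N * n * (i : ℕ) : ℕ) : ℤ)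
  have ht : ∀ i j, i < j → Tendsto (fun n => t n j - t n i) atTop atTop := by
    intro i j hij
    refine tendsto_atTop_mono (fun n => ?_) tendsto_natCast_atTop_atTop
    have : n + N * n * (i:ℕ) ≤ N * n * (j:ℕ) := by
      calc n + N * n * (i:ℕ) ≤ N * n + N * n * (i:ℕ) :=
            Nat.add_le_add_right (Nat.le_mul_of_pos_left n hN) _
        _ = N * n * ((i:ℕ) + 1) := by ring
        _ ≤ _ := Nat.mul_le_mul_left _ hij
    simp only [t]; omega
  have hlimit := (tendsto_integral_prod hT hmix g hg hb t ht).norm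
  have he : ∀ n, ‖∫ x, ∏ i, g i (zpowMap T (t n i) x) ∂μ‖ = 1 := by
    intro n
    have : ∀ᵐ x ∂μ, ∏ i, g i (zpowMap T (t n i) x) = ((c ^ n : Circle) : ℂ) := by
      filter_upwards [hn n] with x hx
      rw [Fin.prod_univ_succ, Fin.prod_univ_succ]
      simp only [g, t, zpowMap_natCast, Fin.cons_zero, Fin.cons_succ, Finset.prod_const_one,
        Fin.val_zero, Fin.val_succ, Nat.mul_zero, Nat.zero_add,
        Function.iterate_zero_apply, mul_one, hx]
      rw [Circle.coe_mul, ← mul_assoc, mul_comm (conj _) _, mul_assoc,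
        Complex.conj_mul', Circle.norm_coe]
      simp
    rw [integral_congr_ae this, integral_const, probReal_univ, one_smul, Circle.norm_coe]
  have := tendsto_nhds_unique (by simpa only [he] using hlimit) tendsto_const_nhds
  rw [Fin.prod_univ_succ, Fin.prod_univ_succ] at this
  simp [g, integral_conj] at this
  have ha : ‖∫ x, (u x : ℂ) ∂μ‖ = 1 := by nlinarith [norm_nonneg (∫ x, (u x : ℂ) ∂μ)]
  exact ae_const_of_norm_integral hu_m ha

include hT hF hmix hm hgap hlim in
lemma relPoly_mem : ∀ᶠ n in atTop, relPoly (d n) ∈ constIdeal μ T hT F := by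
  have hRprod : ∀ P n x, evalObs T F (relPoly (d n) * P) x
      = ∏ i, evalObs T F P ((⇑T)^[d n i] x) := fun P n x =>
    evalObs_sum_X_pow_mul _ _ _ _ _ _
  have hR1 : ∀ n x, (evalObs T F (relPoly (d n)) x : ℂ) = ∏ i, (F ((⇑T)^[d n i] x) : ℂ) := by
    intro n x
    rw [← mul_one (relPoly (d n)), hRprod]
    simp only [evalObs_one]
    exact map_prod Circle.coeHom _ _
  have hA : AsympConst μ T F fun n => relPoly (d n) := by
    choose c hc using fun n => exists_const_integral_le (μ := μ)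
      (measurable_evalObs T.measurable hF (relPoly (d n)))
    refine ⟨c, Metric.tendsto_nhds.mpr fun ε hε => ?_⟩
    have h1 : Tendsto (fun n => ε / 3 + 2 * (1 - ‖∫ x, ∏ i, (F ((⇑T)^[d n i] x) : ℂ) ∂μ‖) / (ε/3))
        atTop (𝓝 (ε / 3)) := by
      simpa using (((hlim.const_sub 1).const_mul 2).div_const (ε/3)).const_add (ε/3)
    filter_upwards [h1.eventually (gt_mem_nhds (show ε/3 < ε by linarith))] with n hn
    rw [Real.dist_eq, sub_zero, abs_of_nonneg (integral_nonneg fun _ => norm_nonneg _)]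
    have := hc n (ε/3) (by linarith)
    simp only [hR1] at this hn ⊢
    linarith
  have dich : ∀ P : ℤ[X], ‖∫ x, (evalObs T F P x : ℂ) ∂μ‖ = 0 ∨
      ‖∫ x, (evalObs T F P x : ℂ) ∂μ‖ = 1 := by
    intro P
    obtain ⟨c, hc⟩ := hA.mul_left hT hF P
    set u := evalObs T F P with hu
    set a := ∫ x, (u x : ℂ) ∂μ with ha
    have hu_m : Measurable fun x => (u x : ℂ) := measurable_evalObs T.measurable hF P
    let t : ℕ → Fin m → ℤ := fun n i => (d n i.castSucc : ℤ)
    have ht : ∀ i j, i < j → Tendsto (fun n => t n j - t n i) atTop atTop := by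
      intro i j hij
      refine tendsto_atTop.mpr fun b => (hgap b.toNat).mono fun n hn => ?_
      have := hn i.castSucc j.castSucc (Fin.castSucc_lt_castSucc_iff.mpr hij)
      simp only [t]; omega
    have hW := (tendsto_integral_prod hT hmix (fun _ x => (u x : ℂ)) (fun _ => hu_m)
      (fun _ x => (Circle.norm_coe _).le) t ht).norm
    simp only [Finset.prod_const, Finset.card_univ, Fintype.card_fin, norm_pow,
      zpowMap_natCast, t] at hW
    have hbound : ∀ n, |‖∫ x, ∏ i : Fin m, (u ((⇑T)^[d n i.castSucc] x) : ℂ) ∂μ‖ - ‖a‖|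
        ≤ ∫ x, ‖(evalObs T F (P * relPoly (d n)) x : ℂ) - c n‖ ∂μ := by
      intro n
      set L := d n (Fin.last m)
      have hmp := hT.iterate L
      have hv : Measurable fun x => (c n : ℂ) * conj (u ((⇑T)^[L] x) : ℂ) :=
        (Complex.continuous_conj.measurable.comp (hu_m.comp hmp.measurable)).const_mul _
      have ea : ∫ x, (c n : ℂ) * conj (u ((⇑T)^[L] x) : ℂ) ∂μ = (c n : ℂ) * conj a := by
        rw [integral_const_mul, integral_conj, ha, ← integral_map hmp.measurable.aemeasurable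
          (f := fun x => (u x : ℂ)) (by rw [hmp.map_eq]; exact hu_m.aestronglyMeasurable),
          hmp.map_eq]
      have hna : ‖(c n : ℂ) * conj a‖ = ‖a‖ := by
        rw [norm_mul, Circle.norm_coe, one_mul, Complex.norm_conj]
      rw [← hna, ← ea]
      refine (abs_norm_sub_norm_le _ _).trans ?_
      rw [← integral_sub (integrable_of_norm_le_one
          (g := fun x => ∏ i : Fin m, (u ((⇑T)^[d n i.castSucc] x) : ℂ))
          (Finset.measurable_prod _ fun i _ => hu_m.comp (hT.iterate _).measurable) fun x => by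
            rw [norm_prod]
            exact Finset.prod_le_one (fun i _ => norm_nonneg _) fun i _ => (Circle.norm_coe _).le)
        (integrable_of_norm_le_one hv fun x => by
            rw [norm_mul, Circle.norm_coe, one_mul, Complex.norm_conj, Circle.norm_coe])]
      refine (norm_integral_le_integral_norm _).trans (le_of_eq (integral_congr_ae ?_))
      refine ae_of_all _ fun x => ?_
      simp only
      have e : (evalObs T F (P * relPoly (d n)) x : ℂ)
          = (∏ i : Fin m, (u ((⇑T)^[d n i.castSucc] x) : ℂ)) * (u ((⇑T)^[L] x) : ℂ) := by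
        rw [mul_comm P, hRprod, Fin.prod_univ_castSucc, Circle.coe_mul]
        exact congrArg (· * _) (map_prod Circle.coeHom _ _)
      rw [e]
      set w := (u ((⇑T)^[L] x) : ℂ)
      have hw : w * conj w = 1 := by
        rw [Complex.mul_conj', show ‖w‖ = 1 from Circle.norm_coe _]; simp
      calc ‖(∏ i : Fin m, (u ((⇑T)^[d n i.castSucc] x) : ℂ)) - (c n : ℂ) * conj w‖
          = ‖((∏ i : Fin m, (u ((⇑T)^[d n i.castSucc] x) : ℂ)) - (c n : ℂ) * conj w) * w‖ := by
            rw [norm_mul, show ‖w‖ = 1 from Circle.norm_coe _, mul_one]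
        _ = _ := by
            congr 1
            linear_combination (-(c n : ℂ)) * hw
    have hWa : Tendsto (fun n => ‖∫ x, ∏ i : Fin m, (u ((⇑T)^[d n i.castSucc] x) : ℂ) ∂μ‖)
        atTop (𝓝 ‖a‖) :=
      tendsto_iff_norm_sub_tendsto_zero.mpr
        (squeeze_zero (fun n => norm_nonneg _) (fun n => hbound n) hc)
    have heq : ‖a‖ = ‖a‖ ^ m := tendsto_nhds_unique hWa hW
    have h1 : ‖a‖ ≤ 1 := by
      simpa using norm_integral_le_of_norm_le_const (μ := μ)
        (ae_of_all _ fun x => (Circle.norm_coe (u x)).le)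
    rcases eq_or_ne ‖a‖ 0 with h0 | h0
    · exact Or.inl h0
    · refine Or.inr (le_antisymm h1 ?_)
      have h2 : ‖a‖ ^ m ≤ ‖a‖ ^ 2 := pow_le_pow_of_le_one (norm_nonneg _) h1 hm
      have h3 : 0 < ‖a‖ := lt_of_le_of_ne (norm_nonneg _) (Ne.symm h0)
      nlinarith
  filter_upwards [hlim.eventually (lt_mem_nhds (one_pos : (0:ℝ) < 1))] with n hn
  refine ae_const_of_norm_integral (measurable_evalObs T.measurable hF _) ?_
  refine (dich (relPoly (d n))).resolve_left ?_
  simp only [hR1]
  exact hn.ne'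

include hT hF hmix hm hd hd0 hgap hlim in
/-- An asymptotically exact relation of order `m + 1` forces the observable to be constant. -/
lemma ae_const : ∃ c : Circle, ∀ᵐ x ∂μ, F x = c := by
  let I := constIdeal μ T hT F
  have hR := relPoly_mem hT hF hmix hm d hgap hlim
  obtain ⟨D, hD, N, e, hN, hDe⟩ := exists_cyclotomic_mem d hd hd0 hgap I hR
  have hCD : C D ∈ I := by
    induction e with
    | zero => simpa using hDe
    | succ e ih =>
      exact ih (cancel_X_pow_sub_one hT hF hmix hm hN _ (by convert hDe using 1; ring))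
  have hnat : C (D.natAbs : ℤ) ∈ I := by
    rcases Int.natAbs_eq D with h | h
    · rwa [← h]
    · have h' : (D.natAbs : ℤ) = -D := by omega
      rw [h', map_neg]
      exact I.neg_mem hCD
  have : NeZero D.natAbs := ⟨Int.natAbs_ne_zero.mpr hD⟩
  obtain ⟨n, hn⟩ := hR.exists
  obtain ⟨a, b, hab, hbin⟩ := exists_binomial_mem I D.natAbs hnat _ (relPoly_monic _ (hd n)) hn
  obtain ⟨p, rfl⟩ := Nat.exists_eq_add_of_lt hab
  have hp : X ^ (p + 1) - 1 ∈ I := by
    obtain ⟨c, hc⟩ := hbin
    refine ⟨c, ?_⟩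
    have hset : MeasurableSet {x | evalObs T F (X ^ (p + 1) - 1) x = c} := by
      have : {x | evalObs T F (X ^ (p + 1) - 1) x = c}
          = (fun x => (evalObs T F (X ^ (p + 1) - 1) x : ℂ)) ⁻¹' {(c : ℂ)} := by
        ext x; exact ⟨fun h => congrArg Subtype.val h, fun h => Subtype.ext h⟩
      rw [this]
      exact measurable_evalObs T.measurable hF _ (measurableSet_singleton _)
    have e : (X ^ (b + p + 1) - X ^ b : ℤ[X]) = X ^ b * (X ^ (p + 1) - 1) := by ring
    simp only [e, evalObs_X_pow_mul] at hc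
    rw [← (hT.iterate b).map_eq]
    exact (ae_map_iff (hT.iterate b).measurable.aemeasurable hset).mpr hc
  obtain ⟨c, hc⟩ := cancel_X_pow_sub_one hT hF hmix hm (N := p + 1) (Nat.succ_pos _) 1
    (by rw [mul_one]; exact hp)
  exact ⟨c, hc.mono fun x hx => by rwa [evalObs_one] at hx⟩

end Vale.Agent.P102
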